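import Vale.Agent.P267.Statement
import Vale.Agent.P267.H158.Inst
import Mathlib.MeasureTheory.Integral.CurveIntegral.Poincare
import Mathlib.Analysis.Calculus.ContDiff.FTaylorSeries

/-!
# P267, package COVER: the bridge from `BettiSucc X 0 1` to the primitive circle valued map
-/

open Set Topology Manifold Filter
open scoped ContDiff
open Vale.Agent.P272.K

noncomputable section

namespace Vale.Agent.P267.H158

/-- covectors as alternating forms of degree one -/
abbrev L1 : (Cm 2 →L[ℝ] ℝ) ≃ₗᵢ[ℝ] (Cm 2 [⋀^Fin 1]→L[ℝ] ℝ) :=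
  ContinuousAlternatingMap.ofSubsingletonLIE (𝕜 := ℝ) (E := Cm 2) (F := ℝ) (0 : Fin 1)

/-- numbers as alternating forms of degree zero -/
abbrev L0 : ℝ ≃ₗᵢ[ℝ] (Cm 2 [⋀^Fin 0]→L[ℝ] ℝ) :=
  ContinuousAlternatingMap.constOfIsEmptyLIE ℝ (Cm 2) ℝ (Fin 0)

theorem extDeriv_L0 (f : Cm 2 → ℝ) (z : Cm 2) :
    extDeriv (fun z => L0 (f z)) z = L1 (fderiv ℝ f z) :=
  extDeriv_constOfIsEmpty f z

theorem contDiff_L0 : ContDiff ℝ ∞ (L0 : ℝ → Cm 2 [⋀^Fin 0]→L[ℝ] ℝ) :=
  LinearIsometryEquiv.contDiff L0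

theorem contDiff_L0_symm : ContDiff ℝ ∞ (L0.symm : Cm 2 [⋀^Fin 0]→L[ℝ] ℝ → ℝ) :=
  LinearIsometryEquiv.contDiff L0.symm

theorem contDiff_L1 : ContDiff ℝ ∞ (L1 : (Cm 2 →L[ℝ] ℝ) → Cm 2 [⋀^Fin 1]→L[ℝ] ℝ) :=
  LinearIsometryEquiv.contDiff L1

theorem contDiff_L1_symm : ContDiff ℝ ∞ (L1.symm : Cm 2 [⋀^Fin 1]→L[ℝ] ℝ → (Cm 2 →L[ℝ] ℝ)) :=
  LinearIsometryEquiv.contDiff L1.symm

section

variable {X : Type*} [TopologicalSpace X] [ChartedSpace (Cm 2) X]

/-- the underlying real manifold of a complex manifold -/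
theorem isManifold_real [IsManifold 𝓘(ℂ, Cm 2) ω X] : IsManifold 𝓘(ℝ, Cm 2) ∞ X := by
  refine isManifold_of_contDiffOn 𝓘(ℝ, Cm 2) ∞ X fun e e' he he' => ?_
  have h1 := HasGroupoid.compatible (G := contDiffGroupoid ω 𝓘(ℂ, Cm 2)) he he'
  rw [contDiffGroupoid, mem_groupoid_of_pregroupoid] at h1
  have h3 := h1.1
  simp only [contDiffPregroupoid, modelWithCornersSelf_coe, modelWithCornersSelf_coe_symm,
    Function.id_comp, Function.comp_id, preimage_id, range_id, inter_univ] at h3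
  simp only [modelWithCornersSelf_coe, modelWithCornersSelf_coe_symm,
    Function.id_comp, Function.comp_id, preimage_id, range_id, inter_univ]
  exact (h3.restrict_scalars ℝ).of_le (by exact_mod_cast le_top)

/-- a one-form as a field of covectors -/
def toCov (a : RForm 1 X) : CovF (Cm 2) X := fun x => L1.symm (a x)

/-- a field of covectors as a one-form -/
def toForm (θ : CovF (Cm 2) X) : RForm 1 X := fun x => L1 (θ x)

theorem toCov_toForm (θ : CovF (Cm 2) X) : toCov (toForm θ) = θ := by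
  funext x
  exact LinearIsometryEquiv.symm_apply_apply L1 (θ x)

theorem toForm_toCov (a : RForm 1 X) : toForm (toCov a) = a := by
  funext x
  exact LinearIsometryEquiv.apply_symm_apply L1 (a x)

/-- the value of a covector field, as a covector of the model space -/
def cv (θ : CovF (Cm 2) X) (x : X) : Cm 2 →L[ℝ] ℝ := θ x

/-- the derivative of a parametrisation, as an endomorphism of the model space -/
def dp (f : Cm 2 → X) (z : Cm 2) : Cm 2 →L[ℝ] Cm 2 := mfderiv 𝓘(ℝ, Cm 2) 𝓘(ℝ, Cm 2) f z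

theorem pullForm_toForm (f : Cm 2 → X) (θ : CovF (Cm 2) X) (z : Cm 2) :
    pullForm f (toForm θ) z = L1 ((cv θ (f z)).comp (dp f z)) := by
  ext v
  rfl

theorem pullForm_eq (f : Cm 2 → X) (a : RForm 1 X) (z : Cm 2) :
    pullForm f a z = L1 ((cv (toCov a) (f z)).comp (dp f z)) := by
  rw [← pullForm_toForm, toForm_toCov]

/-- the function of a zero-form -/
def toFun (b : RForm 0 X) : X → ℝ := fun x => L0.symm (b x)

/-- a function as a zero-form -/
def ofFun (u : X → ℝ) : RForm 0 X := fun x => L0 (u x)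

theorem toFun_ofFun (u : X → ℝ) : toFun (ofFun u) = u := by
  funext x
  exact LinearIsometryEquiv.symm_apply_apply L0 (u x)

theorem ofFun_toFun (b : RForm 0 X) : ofFun (toFun b) = b := by
  funext x
  exact LinearIsometryEquiv.apply_symm_apply L0 (b x)

theorem pullForm_ofFun (f : Cm 2 → X) (u : X → ℝ) : pullForm f (ofFun u) = fun z => L0 (u (f z))
    := by
  funext z
  ext v
  rfl

section charts

variable [IsManifold 𝓘(ℝ, Cm 2) ∞ X] {e : Chart 2 X}

theorem mdiff_chart (he : e ∈ atlas (Cm 2) X) : e.MDifferentiable 𝓘(ℝ, Cm 2) 𝓘(ℝ, Cm 2) :=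
  mdifferentiable_of_mem_atlas he

/-- derivative of a function read in a chart -/
theorem hasFDerivAt_comp_symm (he : e ∈ atlas (Cm 2) X) {u : X → ℝ} {z : Cm 2}
    (hz : z ∈ e.target) {L : Cm 2 →L[ℝ] ℝ}
    (hu : HasMFDerivAt 𝓘(ℝ, Cm 2) 𝓘(ℝ, ℝ) u (e.symm z) L) :
    HasFDerivAt (u ∘ e.symm) (L.comp (dp e.symm z)) z := by
  have h1 := ((mdiff_chart he).mdifferentiableAt_symm hz).hasMFDerivAt
  exact (hu.comp z h1).hasFDerivAt

theorem contDiffAt_comp_symm (he : e ∈ atlas (Cm 2) X) {u : X → ℝ} {z : Cm 2}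
    (hz : z ∈ e.target) (hu : ContMDiffAt 𝓘(ℝ, Cm 2) 𝓘(ℝ, ℝ) ∞ u (e.symm z)) :
    ContDiffAt ℝ ∞ (u ∘ e.symm) z := by
  have h1 : ContMDiffAt 𝓘(ℝ, Cm 2) 𝓘(ℝ, Cm 2) ∞ e.symm z :=
    (contMDiffOn_symm_of_mem_maximalAtlas
      (IsManifold.subset_maximalAtlas he)).contMDiffAt (e.open_target.mem_nhds hz)
  exact (hu.comp z h1).contDiffAt

/-- a function on the target of a chart as a function on the manifold -/
theorem hasMFDerivAt_comp_chart (he : e ∈ atlas (Cm 2) X) {f : Cm 2 → ℝ} {x : X}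
    (hx : x ∈ e.source) {L : Cm 2 →L[ℝ] ℝ}
    (hf : HasFDerivAt f (L.comp (dp e.symm (e x))) (e x)) :
    HasMFDerivAt 𝓘(ℝ, Cm 2) 𝓘(ℝ, ℝ) (f ∘ e) x L := by
  have h1 := ((mdiff_chart he).mdifferentiableAt hx).hasMFDerivAt
  have h2 : HasMFDerivAt 𝓘(ℝ, Cm 2) 𝓘(ℝ, ℝ) f (e x) (L.comp (dp e.symm (e x))) :=
    hf.hasMFDerivAt
  have h3 := h2.comp x h1
  have h4 := (mdiff_chart he).symm_comp_deriv hx
  have h5 : ∀ v : Cm 2, (L.comp (dp e.symm (e x)))
      ((mfderiv 𝓘(ℝ, Cm 2) 𝓘(ℝ, Cm 2) e x : Cm 2 →L[ℝ] Cm 2) v) = L v := by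
    intro v
    have h6 := congrArg (fun T : Cm 2 →L[ℝ] Cm 2 => T v) h4
    exact congrArg L h6
  exact h3.congr_mfderiv (ContinuousLinearMap.ext h5)

theorem contMDiffAt_comp_chart (he : e ∈ atlas (Cm 2) X) {f : Cm 2 → ℝ} {x : X}
    (hx : x ∈ e.source) (hf : ContDiffAt ℝ ∞ f (e x)) :
    ContMDiffAt 𝓘(ℝ, Cm 2) 𝓘(ℝ, ℝ) ∞ (f ∘ e) x := by
  have h1 : ContMDiffAt 𝓘(ℝ, Cm 2) 𝓘(ℝ, Cm 2) ∞ e x :=
    (contMDiffOn_of_mem_maximalAtlas
      (IsManifold.subset_maximalAtlas he)).contMDiffAt (e.open_source.mem_nhds hx)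
  exact (hf.contMDiffAt).comp x h1

/-- (D) exact covector fields are exact forms -/
theorem exactForm_of_exact {θ : CovF (Cm 2) X} (h : Exact θ) : ExactForm (toForm θ) := by
  obtain ⟨u, hu⟩ := h
  have h0 : ∀ e ∈ atlas (Cm 2) X, ∀ z ∈ e.target, HasFDerivAt (u ∘ e.symm)
      ((cv θ (e.symm z)).comp (dp e.symm z)) z :=
    fun e he z hz => hasFDerivAt_comp_symm he hz (hu (e.symm z)).hasMFDerivAt
  refine ⟨ofFun u, fun e he => ?_, fun e he z hz => ?_⟩
  · rw [pullForm_ofFun]
    intro z hz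
    have h1 := contDiffAt_comp_symm he hz (hu (e.symm z)).contMDiffAt
    exact (contDiff_L0.contDiffAt.comp z h1).contDiffWithinAt
  · rw [pullForm_ofFun, pullForm_toForm]
    exact (extDeriv_L0 (u ∘ e.symm) z).trans (congrArg L1 (h0 e he z hz).fderiv)

/-- (B) closed covector fields are closed forms -/
theorem smooth_closed_of_locExact {θ : CovF (Cm 2) X} (h : LocExact θ) :
    SmoothForm (toForm θ) ∧ ClosedForm (toForm θ) := by
  have key : ∀ e ∈ atlas (Cm 2) X, ∀ z ∈ e.target, ∃ f : Cm 2 → ℝ,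
      (∀ᶠ w in 𝓝 z, ContDiffAt ℝ ∞ f w) ∧
      ∀ᶠ w in 𝓝 z, pullForm e.symm (toForm θ) w = L1 (fderiv ℝ f w) := by
    intro e he z hz
    obtain ⟨u, hu⟩ := h (e.symm z)
    have h1 : Tendsto e.symm (𝓝 z) (𝓝 (e.symm z)) := e.symm.continuousAt hz
    have h2 : ∀ᶠ w in 𝓝 z, w ∈ e.target := e.open_target.mem_nhds hz
    refine ⟨u ∘ e.symm, ?_, ?_⟩
    · filter_upwards [h1.eventually hu, h2] with w hw hw'
      exact contDiffAt_comp_symm he hw' hw.1
    · filter_upwards [h1.eventually hu, h2] with w hw hw'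
      rw [pullForm_toForm]
      exact congrArg L1 (hasFDerivAt_comp_symm he hw' hw.2).fderiv.symm
  refine ⟨fun e he z hz => ?_, fun e he z hz => ?_⟩
  · obtain ⟨f, hf, hf'⟩ := key e he z hz
    have h1 : ContDiffAt ℝ ∞ (fun w => L1 (fderiv ℝ f w)) z := by
      refine contDiff_L1.contDiffAt.comp z ?_
      exact (hf.self_of_nhds).fderiv_right (m := ∞) (by simp)
    exact (h1.congr_of_eventuallyEq hf').contDiffWithinAt
  · obtain ⟨f, hf, hf'⟩ := key e he z hz
    have h1 : extDeriv (pullForm e.symm (toForm θ)) z = extDeriv (fun w => L1 (fderiv ℝ f w)) z :=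
      Filter.EventuallyEq.extDeriv_eq hf'
    have h2 : (fun w => L1 (fderiv ℝ f w)) = extDeriv (fun w => L0 (f w)) := by
      funext w
      exact (extDeriv_L0 f w).symm
    have h3 : extDeriv (extDeriv (fun w => L0 (f w))) z = 0 := by
      refine extDeriv_extDeriv_apply (r := ∞) ?_ (by
        rw [minSmoothness_of_isRCLikeNormedField]
        exact (WithTop.coe_le_coe.2 le_top : ((2 : ℕ∞) : WithTop ℕ∞) ≤ ((⊤ : ℕ∞) : WithTop ℕ∞)))
      exact contDiff_L0.contDiffAt.comp z hf.self_of_nhds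
    rw [h1, h2, h3]
    ext v
    rfl

/-- (C) exact forms are exact covector fields -/
theorem exact_of_exactForm {a : RForm 1 X} (h : ExactForm a) : Exact (toCov a) := by
  obtain ⟨b, hb, hba⟩ := h
  have hb' : b = ofFun (toFun b) := (ofFun_toFun b).symm
  refine ⟨toFun b, fun x => ?_⟩
  have he := chart_mem_atlas (Cm 2) x
  set e : Chart 2 X := chartAt (Cm 2) x with hedef
  have key : ∀ y ∈ e.source, ContMDiffAt 𝓘(ℝ, Cm 2) 𝓘(ℝ, ℝ) ∞ (toFun b) y ∧
      HasMFDerivAt 𝓘(ℝ, Cm 2) 𝓘(ℝ, ℝ) (toFun b) y (toCov a y) := by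
    intro y hy
    have hey : e y ∈ e.target := e.map_source hy
    have h1 : ContDiffAt ℝ ∞ (toFun b ∘ e.symm) (e y) := by
      have h2 := (hb e he).contDiffAt (e.open_target.mem_nhds hey)
      have h3 := contDiff_L0_symm.contDiffAt.comp (e y) h2
      refine h3.congr_of_eventuallyEq (Eventually.of_forall fun z => ?_)
      conv_rhs => rw [hb', pullForm_ofFun]
      exact (LinearIsometryEquiv.symm_apply_apply L0 _).symm
    have h4 : (fun z => (toFun b ∘ e.symm) (e z)) =ᶠ[𝓝 y] toFun b := by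
      filter_upwards [e.open_source.mem_nhds hy] with z hz
      rw [Function.comp_apply, e.left_inv hz]
    refine ⟨(contMDiffAt_comp_chart he hy h1).congr_of_eventuallyEq h4.symm, ?_⟩
    have h5 := hba e he (e y) hey
    rw [hb', pullForm_ofFun, pullForm_eq, e.left_inv hy] at h5
    have h6 := (extDeriv_L0 (toFun b ∘ e.symm) (e y)).symm.trans h5
    have h7 := L1.injective h6
    have h8 : HasFDerivAt (toFun b ∘ e.symm) ((cv (toCov a) y).comp (dp e.symm (e y))) (e y) := by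
      rw [← h7]
      exact (h1.differentiableAt (by simp)).hasFDerivAt
    exact (hasMFDerivAt_comp_chart he hy h8).congr_of_eventuallyEq h4.symm
  filter_upwards [e.open_source.mem_nhds (mem_chart_source (Cm 2) x)] with y hy
  exact key y hy

/-- (A) closed forms are closed covector fields: the Poincare lemma -/
theorem locExact_of_closed {a : RForm 1 X} (hs : SmoothForm a) (hc : ClosedForm a) :
    LocExact (toCov a) := by
  intro x
  have he := chart_mem_atlas (Cm 2) x
  have hx := mem_chart_source (Cm 2) x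
  set e : Chart 2 X := chartAt (Cm 2) x with hedef
  -- the form in the chart
  let A : Cm 2 → (Cm 2 →L[ℝ] ℝ) := fun z => L1.symm (pullForm e.symm a z)
  have hA : ContDiffOn ℝ ∞ A e.target := contDiff_L1_symm.comp_contDiffOn (hs e he)
  obtain ⟨r, hr, hball⟩ := Metric.isOpen_iff.1 e.open_target (e x) (e.map_source hx)
  have hA' : ContDiffOn ℝ ∞ A (Metric.ball (e x) r) := hA.mono hball
  have hsymm : ∀ z ∈ Metric.ball (e x) r, ∀ v w, fderiv ℝ A z v w = fderiv ℝ A z w v := by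
    intro z hz v w
    have h1 := hc e he z (hball hz)
    have h2 : DifferentiableAt ℝ (pullForm e.symm a) z :=
      ((hs e he).contDiffAt (e.open_target.mem_nhds (hball hz))).differentiableAt (by simp)
    have h3 : extDeriv (pullForm e.symm a) z ![v, w] = pullForm e.symm (0 : RForm 2 X) z ![v, w] :=
      congrArg (fun T : Cm 2 [⋀^Fin 2]→L[ℝ] ℝ => T ![v, w]) h1
    rw [extDeriv_apply h2, Fin.sum_univ_two] at h3
    have h4 : pullForm e.symm (0 : RForm 2 X) z ![v, w] = 0 := rfl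
    rw [h4] at h3
    have h5 : ∀ t s : Cm 2, fderiv ℝ (fun z => pullForm e.symm a z ![t]) z s =
        fderiv ℝ A z s t := by
      intro t s
      have h6 : (fun z => pullForm e.symm a z ![t]) = fun z => A z t := by
        funext z'
        change _ = L1.symm (pullForm e.symm a z') t
        conv_lhs => rw [← LinearIsometryEquiv.apply_symm_apply L1 (pullForm e.symm a z')]
        rfl
      rw [h6]
      have h7 : DifferentiableAt ℝ A z :=
        (hA'.contDiffAt (Metric.isOpen_ball.mem_nhds hz)).differentiableAt (by simp)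
      rw [fderiv_clm_apply h7 (differentiableAt_const t)]
      simp
    have h8 : ((0 : Fin 2).removeNth ![v, w]) = ![w] := by
      ext i j
      fin_cases i
      rfl
    have h9 : ((1 : Fin 2).removeNth ![v, w]) = ![v] := by
      ext i j
      fin_cases i
      rfl
    rw [h8, h9, h5, h5] at h3
    simp at h3
    linarith
  obtain ⟨f, hf⟩ := (convex_ball (e x) r).exists_forall_hasFDerivAt_of_fderiv_symmetric
    Metric.isOpen_ball (hA'.differentiableOn (by simp)) hsymm
  have hfs : ContDiffOn ℝ ∞ f (Metric.ball (e x) r) := by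
    have h1 : ∀ z ∈ Metric.ball (e x) r, fderiv ℝ f z = A z := fun z hz => (hf z hz).fderiv
    rw [contDiffOn_infty_iff_fderiv_of_isOpen Metric.isOpen_ball]
    refine ⟨fun z hz => (hf z hz).differentiableAt.differentiableWithinAt, ?_⟩
    exact hA'.congr h1
  refine ⟨f ∘ e, ?_⟩
  have h1 : ∀ᶠ y in 𝓝 x, e y ∈ Metric.ball (e x) r :=
    (e.continuousAt hx).eventually (Metric.ball_mem_nhds _ hr)
  filter_upwards [h1, e.open_source.mem_nhds hx] with y hy hy'
  refine ⟨contMDiffAt_comp_chart he hy' (hfs.contDiffAt (Metric.isOpen_ball.mem_nhds hy)),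
    hasMFDerivAt_comp_chart he hy' ?_⟩
  have h2 := hf (e y) hy
  have h3 : A (e y) = (cv (toCov a) y).comp (dp e.symm (e y)) := by
    change L1.symm (pullForm e.symm a (e y)) = _
    rw [pullForm_eq, LinearIsometryEquiv.symm_apply_apply, e.left_inv hy']
  rwa [h3] at h2

omit [IsManifold 𝓘(ℝ, Cm 2) ∞ X] in
theorem toForm_sub_smul (θ : CovF (Cm 2) X) (a : RForm 1 X) (c : ℝ) :
    toForm (fun y => θ y - c • toCov a y) = toForm θ - c • a := by
  conv_rhs => rw [← toForm_toCov a]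
  funext x
  change L1 (cv θ x - c • cv (toCov a) x) = L1 (cv θ x) - c • L1 (cv (toCov a) x)
  rw [map_sub, map_smul]

end charts

/-- **the primitive circle valued map of a surface with `b₁ = 1`** -/
theorem exists_primitive_of_betti [IsManifold 𝓘(ℝ, Cm 2) ∞ X] [CompactSpace X] [T2Space X]
    [ConnectedSpace X] (hb : BettiSucc X 0 1) :
    ∃ (g : C(X, UnitAddCircle)) (θ : CovF (Cm 2) X), IsDiffC g θ ∧ ¬ Exact θ ∧ Primitive g ∧
      (∀ θ' : CovF (Cm 2) X, LocExact θ' → ∃ c : ℝ, Exact (fun y => θ' y - c • θ y)) ∧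
      ∀ (g' : X → UnitAddCircle) (θ' : CovF (Cm 2) X), IsDiffC g' θ' →
        ∃ (k : ℤ) (v : X → ℝ), (∀ x, PrimAt (fun y => θ' y - (k : ℝ) • θ y) v x) ∧
          ∀ x, g' x = k • g x + toC (v x) := by
  obtain ⟨a, ha, hun⟩ := hb
  have h0 := locExact_of_closed (ha 0).1 (ha 0).2
  refine exists_primitive h0 (fun hex => ?_) (fun θ' hθ' => ?_)
  · have h1 : ExactForm (a 0) := by
      have := exactForm_of_exact hex
      rwa [toForm_toCov] at this
    obtain ⟨t, -, ht⟩ := hun (a 0) (ha 0).1 (ha 0).2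
    have h2 := ht (fun _ => 0) (by
      simp only [Finset.univ_unique, Finset.sum_singleton, zero_smul, sub_zero]
      exact h1)
    have h3 := ht (fun _ => 1) (by
      simp only [Finset.univ_unique, Finset.sum_singleton, one_smul]
      have h4 : a 0 - a default = 0 := by
        have : (default : Fin 1) = 0 := rfl
        rw [this, sub_self]
      rw [h4]
      have h5 := exactForm_of_exact (X := X) exact_zero
      have h6 : toForm (0 : CovF (Cm 2) X) = 0 := by
        funext x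
        change L1 0 = 0
        exact map_zero L1
      rwa [h6] at h5)
    have h4 : (fun _ : Fin 1 => (0 : ℝ)) = fun _ => 1 := h2.trans h3.symm
    exact zero_ne_one (congrFun h4 0)
  · obtain ⟨h1, h2⟩ := smooth_closed_of_locExact hθ'
    obtain ⟨t, ht, -⟩ := hun (toForm θ') h1 h2
    refine ⟨t 0, ?_⟩
    have h3 : toForm θ' - ∑ i, t i • a i = toForm (fun y => θ' y - t 0 • toCov (a 0) y) := by
      rw [toForm_sub_smul]
      simp
    rw [h3] at ht
    have h4 := exact_of_exactForm ht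
    rwa [toCov_toForm] at h4

end

end Vale.Agent.P267.H158
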