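import Vale.Agent.P267.H158.Herm
import Vale.Agent.P267.H661.XTCov

/-!
# P267, package BASE: change of the circle valued map and the data on the infinite cyclic cover
-/

set_option linter.unusedSectionVars false

open scoped Manifold ContDiff ComplexConjugate Matrix ComplexOrder Topology
open Set Filter

noncomputable section

namespace Vale.Agent.P267.H158

open FL XT H661 Vale.Agent.P272.K.LIN

section change

variable {X : Type} [TopologicalSpace X]

/-- the circle valued map `ε (h - toC u)` -/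
def newC (h : C(X, UnitAddCircle)) {u : X → ℝ} (hu : Continuous u) (ε : ℤ) :
    C(X, UnitAddCircle) :=
  ⟨fun x => ε • (h x - toC (u x)),
    (h.continuous.sub (continuous_toC.comp hu)).zsmul ε⟩

variable {h : C(X, UnitAddCircle)} {u : X → ℝ} {hu : Continuous u} {ε : ℤ}

@[simp] theorem newC_apply (x : X) : newC h hu ε x = ε • (h x - toC (u x)) := rfl

theorem newC_primitive (hh : Primitive h) (hε : ε * ε = 1) : Primitive (newC h hu ε) := by
  intro k g hg
  have h1 : ∀ x, h x = (ε * k) • g x + toC (u x) := by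
    intro x
    have h2 := congrArg (fun y => ε • y) (hg x)
    simp only [newC_apply, smul_smul, hε, one_smul] at h2
    rw [← h2, sub_add_cancel]
  have hε' : ε ≠ 0 := by rintro rfl; simp at hε
  by_cases hk : k = 0
  · exfalso
    have h2 : ∀ x, h x = (2 : ℤ) • toC (u x / 2) := by
      intro x
      rw [h1, hk, mul_zero, zero_smul, zero_add, ← toC_zsmul]
      congr 1
      push_cast
      ring
    rcases hh 2 ⟨fun x => toC (u x / 2), continuous_toC.comp (hu.div_const 2)⟩ h2 with h3 | h3 <;>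
      omega
  · have hk' : ((ε * k : ℤ) : ℝ) ≠ 0 := by
      exact_mod_cast mul_ne_zero hε' hk
    have h2 : ∀ x, h x = (ε * k) • (g x + toC (u x / (ε * k : ℤ))) := by
      intro x
      rw [smul_add, ← toC_zsmul, mul_div_cancel₀ _ hk', ← h1]
    have h3 := hh (ε * k) (g + ⟨fun x => toC (u x / (ε * k : ℤ)),
      continuous_toC.comp (hu.div_const _)⟩) h2
    have h4 : ε * (ε * k) = k := by rw [← mul_assoc, hε, one_mul]
    rcases Int.isUnit_iff.1 (IsUnit.of_mul_eq_one ε hε) with rfl | rfl <;>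
      rcases h3 with h3 | h3 <;> omega

/-- the covers of `h` and `ε (h - toC u)` are the same -/
def chg (h : C(X, UnitAddCircle)) {u : X → ℝ} (hu : Continuous u) (ε : ℤ) (z : Cov h) :
    Cov (newC h hu ε) :=
  Cov.mk (Cov.p z) (ε * (Cov.f z - u (Cov.p z))) (by
    rw [toC_zsmul, toC_sub, Cov.toC_f]
    rfl)

@[simp] theorem p_chg (z : Cov h) : Cov.p (chg h hu ε z) = Cov.p z := rfl

@[simp] theorem f_chg (z : Cov h) : Cov.f (chg h hu ε z) = ε * (Cov.f z - u (Cov.p z)) := rfl

theorem continuous_chg : Continuous (chg h hu ε) :=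
  Cov.continuous_iff.2 ⟨Cov.continuous_p,
    continuous_const.mul (Cov.continuous_f.sub (hu.comp Cov.continuous_p))⟩

theorem surjective_chg (hε : ε * ε = 1) : Function.Surjective (chg h hu ε) := by
  intro w
  have hεr : (ε : ℝ) * ε = 1 := by exact_mod_cast hε
  refine ⟨Cov.mk (Cov.p w) (ε * Cov.f w + u (Cov.p w)) ?_, Cov.ext rfl ?_⟩
  · rw [toC_add, toC_zsmul, Cov.toC_f, newC_apply, smul_smul, hε, one_smul, sub_add_cancel]
  · rw [f_chg]
    simp only [Cov.f_mk, Cov.p_mk, add_sub_cancel_right]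
    rw [← mul_assoc, hεr, one_mul]

theorem chartMap_chg [ChartedSpace C2 X] : ChartMap (chg h hu ε) :=
  ⟨continuous_chg, fun z => Eventually.of_forall fun y => by
    rw [Cov.chartAt_coe, Cov.chartAt_coe]
    rfl⟩

end change

section base

variable {X : Type} [TopologicalSpace X] [ChartedSpace C2 X] [IsManifold 𝓘(ℂ, C2) ω X]

theorem isDiffC_newC [CompactSpace X] [T2Space X] {h : C(X, UnitAddCircle)} {θ : CovF C2 X}
    (hθ : IsDiffC h θ) {u : X → ℝ}
    (hu : CkFn C2 ∞ u) (ε : ℤ) :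
    ∃ θ' : CovF C2 X, IsDiffC (newC h (ckFn_continuous hu) ε) θ' := by
  have : IsManifold 𝓘(ℝ, C2) ∞ X := isManifold_real
  have h1 : ContMDiff 𝓘(ℝ, C2) 𝓘(ℝ, ℝ) ∞ u := contMDiff_of_ck hu
  have h2 : ∀ x, PrimAt (fun y => mfderiv 𝓘(ℝ, C2) 𝓘(ℝ, ℝ) u y) u x := fun x =>
    primAt_mfderiv (Eventually.of_forall fun y => h1 y)
  exact ⟨_, (hθ.sub (isDiffC_toC h2)).zsmul ε⟩

/-- **the geometric data on the infinite cyclic cover**, from a primitive smooth circle valued map
`h` and a function `u` with `tr ∂∂̄ (f - u) = c ≠ 0` -/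
theorem exists_xtData [CompactSpace X] [T2Space X] {h : C(X, UnitAddCircle)} {θ : CovF C2 X}
    (hθ : IsDiffC h θ) (hp : Primitive h) {g : X → Matrix (Fin 2) (Fin 2) ℂ} (hg : IsHerm g)
    {u : X → ℝ} (hu : CkFn C2 ∞ u) {c : ℝ} (hc : c ≠ 0)
    (H : ∀ y : Cov h, trh (fun y => g (Cov.p y)) (ddb (cx fun y => Cov.f y - u (Cov.p y))) y =
      (c : ℂ)) :
    ∃ (h' : C(X, UnitAddCircle)) (D : XTData (Cov h')), SmoothC (E := C2) h' ∧ Primitive h' ∧
      (∀ x, D.γ x = Cov.γ x) ∧ (∀ x, D.f x = Cov.f x) ∧ ∀ x, D.h x = g (Cov.p x) := by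
  set ε : ℤ := if 0 < c then 1 else -1 with hεdef
  have hε : ε * ε = 1 := by rw [hεdef]; split_ifs <;> rfl
  have hcpos : 0 < (ε : ℝ) * c := by
    rw [hεdef]
    split_ifs with h0
    · simpa using h0
    · have : c < 0 := lt_of_le_of_ne (not_lt.1 h0) hc
      push_cast
      linarith
  have huc := ckFn_continuous hu
  obtain ⟨θ', hθ'⟩ := isDiffC_newC hθ hu ε
  set h' := newC h huc ε with hh'
  set Q := covQ h' hθ' with hQ
  have hF : CkFn C2 ∞ fun y : Cov h => Cov.f y - u (Cov.p y) :=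
    (covQ h hθ).ck_F.sub (ck_comp (H661.chartMap_p h) hu)
  have hP : ∀ y, trh (fun y => g (Cov.p y)) (ddb (cx Q.F)) y = ((ε * c : ℝ) : ℂ) := by
    intro w
    obtain ⟨z, rfl⟩ := surjective_chg (h := h) (hu := huc) hε w
    have h1 := (chartMap_chg (h := h) (hu := huc) (ε := ε)).trh_ddb_comp
      (fun y => g (Cov.p y)) (cx Q.F) z
    rw [← h1]
    have h2 : (fun y : Cov h => cx Q.F (chg h huc ε y)) =
        fun y => (ε : ℂ) * cx (fun y => Cov.f y - u (Cov.p y)) y := by
      funext y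
      change ((Cov.f (chg h huc ε y) : ℝ) : ℂ) = (ε : ℂ) * ((Cov.f y - u (Cov.p y) : ℝ) : ℂ)
      rw [f_chg]
      push_cast
      ring
    rw [h2, trh, ddb_smul (cx_ck (ckFn_two hF)), Matrix.mul_smul, Matrix.trace_smul]
    have h3 := H z
    rw [trh] at h3
    have h4 : g (Cov.p (chg h huc ε z)) = g (Cov.p z) := rfl
    rw [h4, h3]
    push_cast
    rfl
  refine ⟨h', Q.toXT hg hcpos hP, hθ'.smoothC, newC_primitive hp hε, fun x => rfl, fun x => rfl,
    fun x => rfl⟩

end base

end Vale.Agent.P267.H158
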