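import Vale.Agent.P267.H158.Base
import Vale.Agent.P267.H661.XTFin
import Vale.Agent.P267.H456.Assembly

/-!
# P267, package BASE: the theorem `BaseThm`
-/

open scoped Manifold ContDiff ComplexConjugate Matrix ComplexOrder Topology
open Set Filter

set_option maxSynthPendingDepth 3
set_option linter.unusedSectionVars false

noncomputable section

namespace Vale.Agent.P267.H158

open FL XT H661 Vale.Agent.P272.K.LIN
open Vale.Agent.P267.H469 (S0 S10 S01 Om1 Om2 Om3 calcX calcH gaudScal)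

section

variable {M X : Type} [TopologicalSpace M] [ChartedSpace C2 M] [TopologicalSpace X]
    [ChartedSpace C2 X] {q : M → X} (Q : QData q) [IsManifold 𝓘(ℂ, C2) ω X]
    [IsManifold 𝓘(ℂ, C2) ω M]

/-- the constant `tr ∂∂̄ (F - u)` can be chosen different from zero (this is the argument of
`QData.exists_xt_of_scal` in `H661/XTC.lean`) -/
theorem exists_const_ne [CompactSpace X] [T2Space X] [ConnectedSpace X]
    {h : X → Matrix (Fin 2) (Fin 2) ℂ} (hh : IsHerm h) [PreconnectedSpace M] [Nonempty M]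
    (hb : BettiSucc X 0 1) : ∃ (u : X → ℝ) (c : ℝ), CkFn C2 ∞ u ∧ c ≠ 0 ∧
      ∀ y, trh (fun y => h (q y)) (ddb (cx fun y => Q.F y - u (q y))) y = (c : ℂ) := by
  obtain ⟨A, u, hu, hA, -, hcc⟩ := (gaudScal hh).exists_gaud Q.D1_thetaOm Q.C1L_thetaOm
    Q.thetaOm_ne (Q.b1le hh hb)
  have hureal : ∀ x, conj ((u : X → ℂ) x) = (u : X → ℂ) x := fun x =>
    congrFun (congrArg (fun s : S0 X => (s : X → ℂ)) hu) x
  set u' : X → ℝ := reF (u : X → ℂ) with hu'
  have hcx : cx u' = (u : X → ℂ) := by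
    funext x
    exact Complex.conj_eq_iff_re.1 (hureal x)
  have hck : CkFn C2 ∞ u' := reF_ck (reg0_iff.1 u.2)
  have hcre : ((A.c.re : ℝ) : ℂ) = A.c := Complex.conj_eq_iff_re.1 hcc
  have hc0 : A.c.re ≠ 0 := by
    intro h0
    apply A.c_ne
    rw [← hcre, h0, Complex.ofReal_zero]
  refine ⟨u', A.c.re, hck, hc0, fun y => ?_⟩
  rw [Q.tr_thetaOm u' hck y, hcx, hcre]
  have htr := A.tr_eq
  rw [hA] at htr
  have h5 := congrFun (congrArg (fun s : S0 X => (s : X → ℂ)) htr) (q y)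
  have h6 : trh h (del1 (Q.theta.f01 - dbar0 0 (u : X → ℂ)) + dbar10 (0 : X → Fin 2 → ℂ)) (q y) =
      A.c * 1 := h5
  have h7 : dbar10 (0 : X → Fin 2 → ℂ) = 0 := by
    have : H469.dbar10L (0 : S10 X) = 0 := map_zero _
    exact congrArg (fun s : H469.S11 X => (s : X → Matrix (Fin 2) (Fin 2) ℂ)) this
  rw [h7, add_zero, mul_one] at h6
  exact h6

end

/-- **BASE** -/
theorem base : Asm.BaseThm := by
  intro X _ _ _ _ _ _ n hX
  have hM : IsManifold 𝓘(ℝ, C2) ∞ X := isManifold_real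
  obtain ⟨h, θ, hθ, -, hp, -⟩ := exists_primitive_of_betti hX.b1
  have : LocallyConnectedSpace X := ChartedSpace.locallyConnectedSpace C2 X
  have : ConnectedSpace (Cov h) := Cov.connectedSpace hp
  obtain ⟨g, hg⟩ := exists_isHerm X
  obtain ⟨u, c, hu, hne, hc⟩ := exists_const_ne (covQ h hθ) hg hX.b1
  obtain ⟨h', D, h1, h2, h3, h4, h5⟩ := exists_xtData hθ hp hg hu hne hc
  exact ⟨⟨h', h1, h2, D, h3, h4, g, hg, h5⟩⟩

end Vale.Agent.P267.H158
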